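import Mathlib

/-!
Holomorphic vector bundles on the smooth projective surface `ℙ¹ × ℙ¹`, given by holomorphic
transition matrices for the four standard affine charts; smooth Hermitian metrics, their Chern
curvature, strict Griffiths positivity and ampleness.
-/

namespace Vale.Agent.P296

open Matrix

/-- The complex projective line. -/
abbrev P1 := Projectivization ℂ (Fin 2 → ℂ)

/-- Homogeneous coordinates of the point with affine coordinate `s` in the standard chart `a`: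
`(1, s)` for `a = 0` and `(s, 1)` for `a = 1`. -/
def hv (a : Fin 2) (s : ℂ) : Fin 2 → ℂ := fun i => if i = a then 1 else s

theorem hv_ne_zero (a : Fin 2) (s : ℂ) : hv a s ≠ 0 := by
  intro h
  have := congrFun h a
  simp [hv] at this

/-- The four standard charts `ℂ² → ℙ¹ × ℙ¹`; their images cover `ℙ¹ × ℙ¹`. -/
noncomputable def chart (α : Fin 2 × Fin 2) (z : Fin 2 → ℂ) : P1 × P1 :=
  (Projectivization.mk ℂ (hv α.1 (z 0)) (hv_ne_zero _ _),
   Projectivization.mk ℂ (hv α.2 (z 1)) (hv_ne_zero _ _))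

/-- A holomorphic vector bundle of rank `r` on `ℙ¹ × ℙ¹`, trivialised over the four charts.
A vector over the point `chart α z = chart β w` with coordinates `v` in the trivialisation `α`
has coordinates `T α β z *ᵥ v` in the trivialisation `β`. -/
structure HolBundle (r : ℕ) where
  T : Fin 2 × Fin 2 → Fin 2 × Fin 2 → (Fin 2 → ℂ) → Matrix (Fin r) (Fin r) ℂ
  holo : ∀ α β i j,
    DifferentiableOn ℂ (fun z => T α β z i j) {z | chart α z ∈ Set.range (chart β)}
  self : ∀ α z, T α α z = 1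
  cocycle : ∀ α β γ z w, chart α z = chart β w → chart α z ∈ Set.range (chart γ) →
    T β γ w * T α β z = T α γ z

/-- A smooth Hermitian metric: in the trivialisation `α` the squared norm of `v` over the point
`chart α z` is `star v ⬝ᵥ H α z *ᵥ v`. -/
structure HermMetric {r : ℕ} (E : HolBundle r) where
  H : Fin 2 × Fin 2 → (Fin 2 → ℂ) → Matrix (Fin r) (Fin r) ℂ
  smooth : ∀ α i j, ContDiff ℝ (⊤ : ℕ∞) (fun z => H α z i j)
  herm : ∀ α z, (H α z)ᴴ = H α z
  pos : ∀ α z (v : Fin r → ℂ), v ≠ 0 → 0 < (star v ⬝ᵥ (H α z *ᵥ v)).re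
  compat : ∀ α β z w, chart α z = chart β w → H α z = (E.T α β z)ᴴ * H β w * E.T α β z

/-- The Wirtinger derivative `∂f/∂z_j`. -/
noncomputable def dz (j : Fin 2) (f : (Fin 2 → ℂ) → ℂ) (z : Fin 2 → ℂ) : ℂ :=
  (1 / 2) * (fderiv ℝ f z (Pi.single j 1) - Complex.I * fderiv ℝ f z (Pi.single j Complex.I))

/-- The Wirtinger derivative `∂f/∂z̄_j`. -/
noncomputable def dzbar (j : Fin 2) (f : (Fin 2 → ℂ) → ℂ) (z : Fin 2 → ℂ) : ℂ :=
  (1 / 2) * (fderiv ℝ f z (Pi.single j 1) + Complex.I * fderiv ℝ f z (Pi.single j Complex.I))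

/-- The connection matrix `H⁻¹ ∂_j H` of the Chern connection in a holomorphic frame. -/
noncomputable def conn {r : ℕ} (H : (Fin 2 → ℂ) → Matrix (Fin r) (Fin r) ℂ) (j : Fin 2)
    (z : Fin 2 → ℂ) : Matrix (Fin r) (Fin r) ℂ :=
  (H z)⁻¹ * Matrix.of (fun a b => dz j (fun y => H y a b) z)

/-- The coefficient of `dz_j ∧ dz̄_k` in the Chern curvature: `- ∂̄_k (H⁻¹ ∂_j H)`. -/
noncomputable def curv {r : ℕ} (H : (Fin 2 → ℂ) → Matrix (Fin r) (Fin r) ℂ) (j k : Fin 2)
    (z : Fin 2 → ℂ) : Matrix (Fin r) (Fin r) ℂ :=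
  Matrix.of (fun a b => - dzbar k (fun y => conn H j y a b) z)

/-- Strict Griffiths positivity: `∑ ξ_j conj(ξ_k) h(Θ_{jk} v, v) > 0` for all `ξ ≠ 0`, `v ≠ 0`
at every point. -/
def GriffithsPos {r : ℕ} {E : HolBundle r} (h : HermMetric E) : Prop :=
  ∀ (α : Fin 2 × Fin 2) (z ξ : Fin 2 → ℂ) (v : Fin r → ℂ), ξ ≠ 0 → v ≠ 0 →
    0 < (∑ j, ∑ k, ξ j * star (ξ k) *
      (star v ⬝ᵥ (h.H α z *ᵥ (curv (h.H α) j k z *ᵥ v)))).re

/-- A holomorphic section of `𝒪_{ℙ(E)}(k)`: a holomorphic function on the total space of the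
dual bundle that is homogeneous of degree `k` on each fibre. In the chart `α` it is a function of
the base coordinate `z` and the covector `φ` (a row vector, acting by `v ↦ φ ⬝ᵥ v`). -/
structure TautSection {r : ℕ} (E : HolBundle r) (k : ℕ) where
  f : Fin 2 × Fin 2 → (Fin 2 → ℂ) × (Fin r → ℂ) → ℂ
  holo : ∀ α, Differentiable ℂ (f α)
  homog : ∀ α z φ (c : ℂ), f α (z, c • φ) = c ^ k * f α (z, φ)
  compat : ∀ α β z w φ, chart α z = chart β w → f α (z, φ ᵥ* E.T α β z) = f β (w, φ)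

/-- `E` is ample: for some `k > 0`, finitely many sections of `𝒪_{ℙ(E)}(k)` have no common zero
on `ℙ(E)` and define an injective immersion, that is an embedding, of `ℙ(E)` into a projective
space. -/
def Ample {r : ℕ} (E : HolBundle r) : Prop :=
  ∃ (k n : ℕ) (s : Fin n → TautSection E k), 0 < k ∧
    (∀ α z φ, φ ≠ 0 → ∃ i, (s i).f α (z, φ) ≠ 0) ∧
    (∀ α β z w φ ψ (c : ℂ), φ ≠ 0 → ψ ≠ 0 →
      (∀ i, (s i).f α (z, φ) = c * (s i).f β (w, ψ)) →
      chart α z = chart β w ∧ ∃ d : ℂ, φ = d • (ψ ᵥ* E.T α β z)) ∧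
    (∀ α z φ, φ ≠ 0 →
      Function.Injective (fderiv ℂ (fun p (i : Fin n) => (s i).f α p) (z, φ)))

end Vale.Agent.P296
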