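import Mathlib

/-! Integer tables of bihomogeneous forms and the polynomial identities between them. -/

namespace Vale.Agent.P296

section
variable {R : Type*} [CommRing R]

/-- A binary form in `Y0, Y1` from its list of coefficients. -/
def h1 (Y0 Y1 : R) : List ℤ → R
  | [] => 0
  | c :: l => (c : R) * Y0 ^ l.length + Y1 * h1 Y0 Y1 l

/-- A bihomogeneous form from its table of coefficients. -/
def h2 (X0 X1 Y0 Y1 : R) : List (List ℤ) → R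
  | [] => 0
  | r :: l => h1 Y0 Y1 r * X0 ^ l.length + X1 * h2 X0 X1 Y0 Y1 l

end

def tSa : List (List ℤ) :=
  [[0, -2, -2, 4],
   [2, 0, -16, 2],
   [2, 16, 0, -2],
   [-4, -2, 2, 0]]

def tSb : List (List ℤ) :=
  [[0, 0, 2, -2],
   [0, -4, 2, -2],
   [2, 2, 4, 0],
   [-2, -2, 0, 0]]

def tB0a : List (List ℤ) :=
  [[8, 79, -113],
   [-79, 514, -279],
   [-401, 763, -394],
   [-484, 956, -220],
   [-562, 325, 23],
   [-105, 18, 15],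
   [-41, -15, 0]]

def tB0b : List (List ℤ) :=
  [[0, -49, 64],
   [49, -262, 167],
   [198, -519, 222],
   [352, -448, 128],
   [226, -263, -6],
   [135, 6, -15],
   [0, 15, 0]]

def tB1a : List (List ℤ) :=
  [[0, 15, -41],
   [-15, 18, 105],
   [23, -325, -562],
   [220, 956, 484],
   [-394, -763, -401],
   [279, 514, 79],
   [-113, -79, 8]]

def tB1b : List (List ℤ) :=
  [[0, 15, 0],
   [-15, -6, 135],
   [6, -263, -226],
   [128, 448, 352],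
   [-222, -519, -198],
   [167, 262, 49],
   [-64, -49, 0]]

def tA0a : List (List ℤ) :=
  [[8, -79, -401, -484, -562, -105, -41],
   [79, 514, 763, 956, 325, 18, -15],
   [-113, -279, -394, -220, 23, 15, 0]]

def tA0b : List (List ℤ) :=
  [[0, -49, -198, -352, -226, -135, 0],
   [49, 262, 519, 448, 263, -6, -15],
   [-64, -167, -222, -128, 6, 15, 0]]

def tA1a : List (List ℤ) :=
  [[0, -15, 23, 220, -394, 279, -113],
   [15, 18, -325, 956, -763, 514, -79],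
   [-41, 105, -562, 484, -401, 79, 8]]

def tA1b : List (List ℤ) :=
  [[0, 15, -6, -128, 222, -167, 64],
   [-15, 6, 263, -448, 519, -262, 49],
   [0, -135, 226, -352, 198, -49, 0]]

def tRa : List (List ℤ) :=
  [[-15, 11, 4, 6, 5, 7, 0, 34],
   [83, -1, 4, 2, -1, -5, -8, 46],
   [-46, -8, 5, -1, -2, 4, 1, 83],
   [34, 0, 7, -5, 6, -4, 11, 15]]

def tRb : List (List ℤ) :=
  [[-15, 0, -4, -3, -3, -4, 0, -15],
   [36, -9, -3, 0, 0, 3, 9, -36],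
   [-36, -9, 3, 0, 0, 3, -9, -36],
   [15, 0, 4, -3, 3, -4, 0, -15]]

def tQ00a : List (List ℤ) :=
  [[0, 5502, -64, 9225, -2505, 1394],
   [-5502, 0, -26099, 4754, -10960, 1721],
   [64, 26099, 0, 32170, -6850, 2473],
   [-9225, -4754, -32170, 0, -5651, 240],
   [2505, 10960, 6850, 5651, 0, -450],
   [-1394, -1721, -2473, -240, 450, 0]]

def tQ00b : List (List ℤ) :=
  [[784, 288, 5110, -910, 3015, -615],
   [288, -9980, 910, -13870, 3273, -1191],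
   [5110, 910, 21710, -2658, 7710, -1326],
   [-910, -13870, -2658, -13038, 1326, 90],
   [3015, 3273, 7710, 1326, -180, 0],
   [-615, -1191, -1326, 90, 0, 0]]

def tQ01a : List (List ℤ) :=
  [[-120, 3478, 14088, 19009, 14055, 3234],
   [-2726, -30488, -82651, -99462, -69744, -14055],
   [16056, 88875, 166640, 186314, 99462, 19009],
   [-24945, -98138, -175754, -166640, -82651, -14088],
   [17001, 62768, 98138, 88875, 30488, 3478],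
   [-6722, -17001, -24945, -16056, -2726, 120]]

def tQ01b : List (List ℤ) :=
  [[-120, 1920, 8414, 10458, 8679, 1617],
   [-1632, -18084, -46602, -59094, -38799, -8679],
   [9278, 50502, 97886, 105326, 59094, 10458],
   [-14358, -57334, -100146, -97886, -46602, -8414],
   [9863, 35873, 57334, 50502, 18084, 1920],
   [-3871, -9863, -14358, -9278, -1632, 120]]

def tQ10a : List (List ℤ) :=
  [[120, 2726, -16056, 24945, -17001, 6722],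
   [-3478, 30488, -88875, 98138, -62768, 17001],
   [-14088, 82651, -166640, 175754, -98138, 24945],
   [-19009, 99462, -186314, 166640, -88875, 16056],
   [-14055, 69744, -99462, 82651, -30488, 2726],
   [-3234, 14055, -19009, 14088, -3478, -120]]

def tQ10b : List (List ℤ) :=
  [[-120, -1632, 9278, -14358, 9863, -3871],
   [1920, -18084, 50502, -57334, 35873, -9863],
   [8414, -46602, 97886, -100146, 57334, -14358],
   [10458, -59094, 105326, -97886, 50502, -9278],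
   [8679, -38799, 59094, -46602, 18084, -1632],
   [1617, -8679, 10458, -8414, 1920, 120]]

def tQ11a : List (List ℤ) :=
  [[0, -450, -240, 2473, -1721, 1394],
   [450, 0, -5651, 6850, -10960, 2505],
   [240, 5651, 0, 32170, -4754, 9225],
   [-2473, -6850, -32170, 0, -26099, 64],
   [1721, 10960, 4754, 26099, 0, 5502],
   [-1394, -2505, -9225, -64, -5502, 0]]

def tQ11b : List (List ℤ) :=
  [[0, 0, -90, -1326, 1191, -615],
   [0, 180, 1326, -7710, 3273, -3015],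
   [-90, 1326, 13038, -2658, 13870, -910],
   [-1326, -7710, -2658, -21710, 910, -5110],
   [1191, 3273, 13870, 910, 9980, 288],
   [-615, -3015, -910, -5110, 288, -784]]

theorem idRa {R : Type*} [CommRing R] (X0 X1 Y0 Y1 : R) :
    2 * (h2 X0 X1 Y0 Y1 tB1a * Y0 ^ 8 - h2 X0 X1 Y0 Y1 tB0a * Y1 ^ 8) =
      h2 X0 X1 Y0 Y1 tSa * h2 X0 X1 Y0 Y1 tRa + 3 * (h2 X0 X1 Y0 Y1 tSb * h2 X0 X1 Y0 Y1 tRb) := by
  simp only [h2, h1, tB1a, tB0a, tSa, tSb, tRa, tRb, List.length_cons, List.length_nil]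
  push_cast
  ring

theorem idRb {R : Type*} [CommRing R] (X0 X1 Y0 Y1 : R) :
    2 * (h2 X0 X1 Y0 Y1 tB1b * Y0 ^ 8 - h2 X0 X1 Y0 Y1 tB0b * Y1 ^ 8) =
      h2 X0 X1 Y0 Y1 tSa * h2 X0 X1 Y0 Y1 tRb + h2 X0 X1 Y0 Y1 tSb * h2 X0 X1 Y0 Y1 tRa := by
  simp only [h2, h1, tB1b, tB0b, tSa, tSb, tRa, tRb, List.length_cons, List.length_nil]
  push_cast
  ring

theorem idQ00a {R : Type*} [CommRing R] (X0 X1 Y0 Y1 : R) :
    2 * (h2 X0 X1 Y0 Y1 tA0a * h2 X0 X1 Y0 Y1 tB0a + 3 * (h2 X0 X1 Y0 Y1 tA0b * h2 X0 X1 Y0 Y1 tB0b)) -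
      128 * (X0 ^ 8 * Y0 ^ 8) =
      h2 X0 X1 Y0 Y1 tSa * h2 X0 X1 Y0 Y1 tQ00a + 3 * (h2 X0 X1 Y0 Y1 tSb * h2 X0 X1 Y0 Y1 tQ00b) := by
  simp only [h2, h1, tA0a, tA0b, tB0a, tB0b, tSa, tSb, tQ00a, tQ00b, List.length_cons, List.length_nil]
  push_cast
  ring

theorem idQ00b {R : Type*} [CommRing R] (X0 X1 Y0 Y1 : R) :
    2 * (h2 X0 X1 Y0 Y1 tA0a * h2 X0 X1 Y0 Y1 tB0b + h2 X0 X1 Y0 Y1 tA0b * h2 X0 X1 Y0 Y1 tB0a) =
      h2 X0 X1 Y0 Y1 tSa * h2 X0 X1 Y0 Y1 tQ00b + h2 X0 X1 Y0 Y1 tSb * h2 X0 X1 Y0 Y1 tQ00a := by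
  simp only [h2, h1, tA0a, tA0b, tB0a, tB0b, tSa, tSb, tQ00a, tQ00b, List.length_cons, List.length_nil]
  push_cast
  ring

theorem idQ01a {R : Type*} [CommRing R] (X0 X1 Y0 Y1 : R) :
    2 * (h2 X0 X1 Y0 Y1 tA0a * h2 X0 X1 Y0 Y1 tB1a + 3 * (h2 X0 X1 Y0 Y1 tA0b * h2 X0 X1 Y0 Y1 tB1b)) -
      128 * (X0 ^ 8 * Y1 ^ 8) =
      h2 X0 X1 Y0 Y1 tSa * h2 X0 X1 Y0 Y1 tQ01a + 3 * (h2 X0 X1 Y0 Y1 tSb * h2 X0 X1 Y0 Y1 tQ01b) := by
  simp only [h2, h1, tA0a, tA0b, tB1a, tB1b, tSa, tSb, tQ01a, tQ01b, List.length_cons, List.length_nil]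
  push_cast
  ring

theorem idQ01b {R : Type*} [CommRing R] (X0 X1 Y0 Y1 : R) :
    2 * (h2 X0 X1 Y0 Y1 tA0a * h2 X0 X1 Y0 Y1 tB1b + h2 X0 X1 Y0 Y1 tA0b * h2 X0 X1 Y0 Y1 tB1a) =
      h2 X0 X1 Y0 Y1 tSa * h2 X0 X1 Y0 Y1 tQ01b + h2 X0 X1 Y0 Y1 tSb * h2 X0 X1 Y0 Y1 tQ01a := by
  simp only [h2, h1, tA0a, tA0b, tB1a, tB1b, tSa, tSb, tQ01a, tQ01b, List.length_cons, List.length_nil]
  push_cast
  ring

theorem idQ10a {R : Type*} [CommRing R] (X0 X1 Y0 Y1 : R) :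
    2 * (h2 X0 X1 Y0 Y1 tA1a * h2 X0 X1 Y0 Y1 tB0a + 3 * (h2 X0 X1 Y0 Y1 tA1b * h2 X0 X1 Y0 Y1 tB0b)) -
      128 * (X1 ^ 8 * Y0 ^ 8) =
      h2 X0 X1 Y0 Y1 tSa * h2 X0 X1 Y0 Y1 tQ10a + 3 * (h2 X0 X1 Y0 Y1 tSb * h2 X0 X1 Y0 Y1 tQ10b) := by
  simp only [h2, h1, tA1a, tA1b, tB0a, tB0b, tSa, tSb, tQ10a, tQ10b, List.length_cons, List.length_nil]
  push_cast
  ring

theorem idQ10b {R : Type*} [CommRing R] (X0 X1 Y0 Y1 : R) :
    2 * (h2 X0 X1 Y0 Y1 tA1a * h2 X0 X1 Y0 Y1 tB0b + h2 X0 X1 Y0 Y1 tA1b * h2 X0 X1 Y0 Y1 tB0a) =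
      h2 X0 X1 Y0 Y1 tSa * h2 X0 X1 Y0 Y1 tQ10b + h2 X0 X1 Y0 Y1 tSb * h2 X0 X1 Y0 Y1 tQ10a := by
  simp only [h2, h1, tA1a, tA1b, tB0a, tB0b, tSa, tSb, tQ10a, tQ10b, List.length_cons, List.length_nil]
  push_cast
  ring

theorem idQ11a {R : Type*} [CommRing R] (X0 X1 Y0 Y1 : R) :
    2 * (h2 X0 X1 Y0 Y1 tA1a * h2 X0 X1 Y0 Y1 tB1a + 3 * (h2 X0 X1 Y0 Y1 tA1b * h2 X0 X1 Y0 Y1 tB1b)) -
      128 * (X1 ^ 8 * Y1 ^ 8) =
      h2 X0 X1 Y0 Y1 tSa * h2 X0 X1 Y0 Y1 tQ11a + 3 * (h2 X0 X1 Y0 Y1 tSb * h2 X0 X1 Y0 Y1 tQ11b) := by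
  simp only [h2, h1, tA1a, tA1b, tB1a, tB1b, tSa, tSb, tQ11a, tQ11b, List.length_cons, List.length_nil]
  push_cast
  ring

theorem idQ11b {R : Type*} [CommRing R] (X0 X1 Y0 Y1 : R) :
    2 * (h2 X0 X1 Y0 Y1 tA1a * h2 X0 X1 Y0 Y1 tB1b + h2 X0 X1 Y0 Y1 tA1b * h2 X0 X1 Y0 Y1 tB1a) =
      h2 X0 X1 Y0 Y1 tSa * h2 X0 X1 Y0 Y1 tQ11b + h2 X0 X1 Y0 Y1 tSb * h2 X0 X1 Y0 Y1 tQ11a := by
  simp only [h2, h1, tA1a, tA1b, tB1a, tB1b, tSa, tSb, tQ11a, tQ11b, List.length_cons, List.length_nil]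
  push_cast
  ring

end Vale.Agent.P296
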