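import Vale.Agent.P296.Tab

/-! Identities along the three graphs. -/

namespace Vale.Agent.P296

theorem idS {R : Type*} [CommRing R] (q X0 X1 Y0 Y1 : R) (hq : q ^ 2 = 3) :
    h2 X0 X1 Y0 Y1 tSa + q * h2 X0 X1 Y0 Y1 tSb = (X0 * Y1 - X1 * Y0) *
      (((q - 1) * X0 - (q + 1) * X1) * Y1 - ((q - 1) * X0 + (q + 1) * X1) * Y0) *
      (((q - 1) * X0 + (q - 1) * X1) * Y1 - (-(q + 1) * X0 + (q + 1) * X1) * Y0) := by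
  simp only [h2, h1, tSa, tSb, List.length_cons, List.length_nil]
  push_cast
  linear_combination ((-1)*X1^3*Y0*Y1^2 + (1)*X1^3*Y0^3 + (1)*X0*X1^2*Y1^3 + (-5)*X0*X1^2*Y0^2*Y1 + 
    (5)*X0^2*X1*Y0*Y1^2 + (-1)*X0^2*X1*Y0^3 + (-1)*X0^3*Y1^3 + (1)*X0^3*Y0^2*Y1) * hq

theorem idB00 {R : Type*} [CommRing R] (q X0 X1 : R) :
    h2 X0 X1 X0 X1 tB0a + q * h2 X0 X1 X0 X1 tB0b = 8 * X0 ^ 8 := by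
  simp only [h2, h1, tB0a, tB0b, List.length_cons, List.length_nil]
  push_cast
  ring

theorem idB01 {R : Type*} [CommRing R] (q X0 X1 : R) :
    h2 X0 X1 X0 X1 tB1a + q * h2 X0 X1 X0 X1 tB1b = 8 * X1 ^ 8 := by
  simp only [h2, h1, tB1a, tB1b, List.length_cons, List.length_nil]
  push_cast
  ring

theorem idB10 {R : Type*} [CommRing R] (q X0 X1 : R) (hq : q ^ 2 = 3) :
    8 * (h2 X0 X1 ((q - 1) * X0 - (q + 1) * X1) ((q - 1) * X0 + (q + 1) * X1) tB0a +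
      q * h2 X0 X1 ((q - 1) * X0 - (q + 1) * X1) ((q - 1) * X0 + (q + 1) * X1) tB0b) =
      - ((q - 1) * X0 - (q + 1) * X1) ^ 8 := by
  simp only [h2, h1, tB0a, tB0b, List.length_cons, List.length_nil]
  push_cast
  linear_combination ((69)*X1^8 + (504)*X0*X1^7 + (3084)*X0^2*X1^6 + (7720)*X0^3*X1^5 + (6110)*X0^4*X1^4 + 
    (1672)*X0^5*X1^3 + (-500)*X0^6*X1^2 + (-1064)*X0^7*X1 + (69)*X0^8 + (176)*q*X1^8 + 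
    (256)*q*X0*X1^7 + (2144)*q*X0^2*X1^6 + (4384)*q*X0^3*X1^5 + (3584)*q*X0^4*X1^4 + 
    (4800)*q*X0^5*X1^3 + (1440)*q*X0^6*X1^2 + (1312)*q*X0^7*X1 + (-176)*q*X0^8 + 
    (163)*q^2*X1^8 + (-408)*q^2*X0*X1^7 + (308)*q^2*X0^2*X1^6 + (-168)*q^2*X0^3*X1^5 + 
    (210)*q^2*X0^4*X1^4 + (-168)*q^2*X0^5*X1^3 + (308)*q^2*X0^6*X1^2 + (-408)*q^2*X0^7*X1 + 
    (163)*q^2*X0^8 + (80)*q^3*X1^8 + (-256)*q^3*X0*X1^7 + (224)*q^3*X0^2*X1^6 + 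
    (-224)*q^3*X0^6*X1^2 + (256)*q^3*X0^7*X1 + (-80)*q^3*X0^8 + (31)*q^4*X1^8 + 
    (-136)*q^4*X0*X1^7 + (196)*q^4*X0^2*X1^6 + (-56)*q^4*X0^3*X1^5 + (-70)*q^4*X0^4*X1^4 + 
    (-56)*q^4*X0^5*X1^3 + (196)*q^4*X0^6*X1^2 + (-136)*q^4*X0^7*X1 + (31)*q^4*X0^8 + 
    (8)*q^5*X1^8 + (-48)*q^5*X0*X1^7 + (112)*q^5*X0^2*X1^6 + (-112)*q^5*X0^3*X1^5 + 
    (112)*q^5*X0^5*X1^3 + (-112)*q^5*X0^6*X1^2 + (48)*q^5*X0^7*X1 + (-8)*q^5*X0^8 + 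
    (1)*q^6*X1^8 + (-8)*q^6*X0*X1^7 + (28)*q^6*X0^2*X1^6 + (-56)*q^6*X0^3*X1^5 + 
    (70)*q^6*X0^4*X1^4 + (-56)*q^6*X0^5*X1^3 + (28)*q^6*X0^6*X1^2 + (-8)*q^6*X0^7*X1 + 
    (1)*q^6*X0^8) * hq

theorem idB11 {R : Type*} [CommRing R] (q X0 X1 : R) (hq : q ^ 2 = 3) :
    8 * (h2 X0 X1 ((q - 1) * X0 - (q + 1) * X1) ((q - 1) * X0 + (q + 1) * X1) tB1a +
      q * h2 X0 X1 ((q - 1) * X0 - (q + 1) * X1) ((q - 1) * X0 + (q + 1) * X1) tB1b) =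
      - ((q - 1) * X0 + (q + 1) * X1) ^ 8 := by
  simp only [h2, h1, tB1a, tB1b, List.length_cons, List.length_nil]
  push_cast
  linear_combination ((69)*X1^8 + (1064)*X0*X1^7 + (-500)*X0^2*X1^6 + (-1672)*X0^3*X1^5 + (6110)*X0^4*X1^4 + 
    (-7720)*X0^5*X1^3 + (3084)*X0^6*X1^2 + (-504)*X0^7*X1 + (69)*X0^8 + (176)*q*X1^8 + 
    (1312)*q*X0*X1^7 + (-1440)*q*X0^2*X1^6 + (4800)*q*X0^3*X1^5 + (-3584)*q*X0^4*X1^4 + 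
    (4384)*q*X0^5*X1^3 + (-2144)*q*X0^6*X1^2 + (256)*q*X0^7*X1 + (-176)*q*X0^8 + 
    (163)*q^2*X1^8 + (408)*q^2*X0*X1^7 + (308)*q^2*X0^2*X1^6 + (168)*q^2*X0^3*X1^5 + 
    (210)*q^2*X0^4*X1^4 + (168)*q^2*X0^5*X1^3 + (308)*q^2*X0^6*X1^2 + (408)*q^2*X0^7*X1 + 
    (163)*q^2*X0^8 + (80)*q^3*X1^8 + (256)*q^3*X0*X1^7 + (224)*q^3*X0^2*X1^6 + 
    (-224)*q^3*X0^6*X1^2 + (-256)*q^3*X0^7*X1 + (-80)*q^3*X0^8 + (31)*q^4*X1^8 + 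
    (136)*q^4*X0*X1^7 + (196)*q^4*X0^2*X1^6 + (56)*q^4*X0^3*X1^5 + (-70)*q^4*X0^4*X1^4 + 
    (56)*q^4*X0^5*X1^3 + (196)*q^4*X0^6*X1^2 + (136)*q^4*X0^7*X1 + (31)*q^4*X0^8 + 
    (8)*q^5*X1^8 + (48)*q^5*X0*X1^7 + (112)*q^5*X0^2*X1^6 + (112)*q^5*X0^3*X1^5 + 
    (-112)*q^5*X0^5*X1^3 + (-112)*q^5*X0^6*X1^2 + (-48)*q^5*X0^7*X1 + (-8)*q^5*X0^8 + 
    (1)*q^6*X1^8 + (8)*q^6*X0*X1^7 + (28)*q^6*X0^2*X1^6 + (56)*q^6*X0^3*X1^5 + 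
    (70)*q^6*X0^4*X1^4 + (56)*q^6*X0^5*X1^3 + (28)*q^6*X0^6*X1^2 + (8)*q^6*X0^7*X1 + 
    (1)*q^6*X0^8) * hq

theorem idB20 {R : Type*} [CommRing R] (q X0 X1 : R) (hq : q ^ 2 = 3) :
    8 * (h2 X0 X1 ((q - 1) * X0 + (q - 1) * X1) (-(q + 1) * X0 + (q + 1) * X1) tB0a +
      q * h2 X0 X1 ((q - 1) * X0 + (q - 1) * X1) (-(q + 1) * X0 + (q + 1) * X1) tB0b) =
      - ((q - 1) * X0 + (q - 1) * X1) ^ 8 := by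
  simp only [h2, h1, tB0a, tB0b, List.length_cons, List.length_nil]
  push_cast
  linear_combination ((69)*X1^8 + (504)*X0*X1^7 + (3084)*X0^2*X1^6 + (7720)*X0^3*X1^5 + (6110)*X0^4*X1^4 + 
    (1672)*X0^5*X1^3 + (-500)*X0^6*X1^2 + (-1064)*X0^7*X1 + (69)*X0^8 + (-176)*q*X1^8 + 
    (-1360)*q*X0*X1^7 + (-6352)*q*X0^2*X1^6 + (-11696)*q*X0^3*X1^5 + (-14064)*q*X0^4*X1^4 + 
    (-9904)*q*X0^5*X1^3 + (-2544)*q*X0^6*X1^2 + (432)*q*X0^7*X1 + (608)*q*X0^8 + 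
    (163)*q^2*X1^8 + (1304)*q^2*X0*X1^7 + (4564)*q^2*X0^2*X1^6 + (9128)*q^2*X0^3*X1^5 + 
    (11410)*q^2*X0^4*X1^4 + (9128)*q^2*X0^5*X1^3 + (4564)*q^2*X0^6*X1^2 + (1304)*q^2*X0^7*X1 + 
    (163)*q^2*X0^8 + (-80)*q^3*X1^8 + (-640)*q^3*X0*X1^7 + (-2240)*q^3*X0^2*X1^6 + 
    (-4480)*q^3*X0^3*X1^5 + (-5600)*q^3*X0^4*X1^4 + (-4480)*q^3*X0^5*X1^3 + 
    (-2240)*q^3*X0^6*X1^2 + (-640)*q^3*X0^7*X1 + (-80)*q^3*X0^8 + (31)*q^4*X1^8 + 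
    (248)*q^4*X0*X1^7 + (868)*q^4*X0^2*X1^6 + (1736)*q^4*X0^3*X1^5 + (2170)*q^4*X0^4*X1^4 + 
    (1736)*q^4*X0^5*X1^3 + (868)*q^4*X0^6*X1^2 + (248)*q^4*X0^7*X1 + (31)*q^4*X0^8 + 
    (-8)*q^5*X1^8 + (-64)*q^5*X0*X1^7 + (-224)*q^5*X0^2*X1^6 + (-448)*q^5*X0^3*X1^5 + 
    (-560)*q^5*X0^4*X1^4 + (-448)*q^5*X0^5*X1^3 + (-224)*q^5*X0^6*X1^2 + (-64)*q^5*X0^7*X1 + 
    (-8)*q^5*X0^8 + (1)*q^6*X1^8 + (8)*q^6*X0*X1^7 + (28)*q^6*X0^2*X1^6 + (56)*q^6*X0^3*X1^5 + 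
    (70)*q^6*X0^4*X1^4 + (56)*q^6*X0^5*X1^3 + (28)*q^6*X0^6*X1^2 + (8)*q^6*X0^7*X1 + 
    (1)*q^6*X0^8) * hq

theorem idB21 {R : Type*} [CommRing R] (q X0 X1 : R) (hq : q ^ 2 = 3) :
    8 * (h2 X0 X1 ((q - 1) * X0 + (q - 1) * X1) (-(q + 1) * X0 + (q + 1) * X1) tB1a +
      q * h2 X0 X1 ((q - 1) * X0 + (q - 1) * X1) (-(q + 1) * X0 + (q + 1) * X1) tB1b) =
      - (-(q + 1) * X0 + (q + 1) * X1) ^ 8 := by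
  simp only [h2, h1, tB1a, tB1b, List.length_cons, List.length_nil]
  push_cast
  linear_combination ((69)*X1^8 + (1064)*X0*X1^7 + (-500)*X0^2*X1^6 + (-1672)*X0^3*X1^5 + (6110)*X0^4*X1^4 + 
    (-7720)*X0^5*X1^3 + (3084)*X0^6*X1^2 + (-504)*X0^7*X1 + (69)*X0^8 + (-608)*q*X1^8 + 
    (432)*q*X0*X1^7 + (2544)*q*X0^2*X1^6 + (-9904)*q*X0^3*X1^5 + (14064)*q*X0^4*X1^4 + 
    (-11696)*q*X0^5*X1^3 + (6352)*q*X0^6*X1^2 + (-1360)*q*X0^7*X1 + (176)*q*X0^8 + 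
    (163)*q^2*X1^8 + (-1304)*q^2*X0*X1^7 + (4564)*q^2*X0^2*X1^6 + (-9128)*q^2*X0^3*X1^5 + 
    (11410)*q^2*X0^4*X1^4 + (-9128)*q^2*X0^5*X1^3 + (4564)*q^2*X0^6*X1^2 + 
    (-1304)*q^2*X0^7*X1 + (163)*q^2*X0^8 + (80)*q^3*X1^8 + (-640)*q^3*X0*X1^7 + 
    (2240)*q^3*X0^2*X1^6 + (-4480)*q^3*X0^3*X1^5 + (5600)*q^3*X0^4*X1^4 + 
    (-4480)*q^3*X0^5*X1^3 + (2240)*q^3*X0^6*X1^2 + (-640)*q^3*X0^7*X1 + (80)*q^3*X0^8 + 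
    (31)*q^4*X1^8 + (-248)*q^4*X0*X1^7 + (868)*q^4*X0^2*X1^6 + (-1736)*q^4*X0^3*X1^5 + 
    (2170)*q^4*X0^4*X1^4 + (-1736)*q^4*X0^5*X1^3 + (868)*q^4*X0^6*X1^2 + (-248)*q^4*X0^7*X1 + 
    (31)*q^4*X0^8 + (8)*q^5*X1^8 + (-64)*q^5*X0*X1^7 + (224)*q^5*X0^2*X1^6 + 
    (-448)*q^5*X0^3*X1^5 + (560)*q^5*X0^4*X1^4 + (-448)*q^5*X0^5*X1^3 + (224)*q^5*X0^6*X1^2 + 
    (-64)*q^5*X0^7*X1 + (8)*q^5*X0^8 + (1)*q^6*X1^8 + (-8)*q^6*X0*X1^7 + (28)*q^6*X0^2*X1^6 + 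
    (-56)*q^6*X0^3*X1^5 + (70)*q^6*X0^4*X1^4 + (-56)*q^6*X0^5*X1^3 + (28)*q^6*X0^6*X1^2 + 
    (-8)*q^6*X0^7*X1 + (1)*q^6*X0^8) * hq

end Vale.Agent.P296
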